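import Mathlib

/-! The naive height of a rational number. -/

namespace Vale.Agent.P027

/-- The height `max (|a|, b)` of the rational number `a / b` in lowest terms. -/
def H (x : ℚ) : ℕ := max x.num.natAbs x.den

end Vale.Agent.P027
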