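import Vale.Agent.P027.Defs

/-! Sets that are Diophantine over the rationals with height comparisons: closure properties. -/

namespace Vale.Agent.P027

open Sum

/-- Polynomial functions with integer coefficients. -/
inductive QP {α : Type} : ((α → ℚ) → ℚ) → Prop
  | proj (i : α) : QP fun v => v i
  | const (n : ℤ) : QP fun _ => n
  | sub {f g : (α → ℚ) → ℚ} : QP f → QP g → QP fun v => f v - g v
  | mul {f g : (α → ℚ) → ℚ} : QP f → QP g → QP fun v => f v * g v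

/-- Diophantine with height comparisons. -/
def HD {α : Type} (S : (α → ℚ) → Prop) : Prop :=
  ∃ (β : Type) (_ : Finite β) (p : (α ⊕ β → ℚ) → ℚ) (L : List (β × β)), QP p ∧
    ∀ v, S v ↔ ∃ t : β → ℚ, p (Sum.elim v t) = 0 ∧ ∀ q ∈ L, H (t q.1) ≤ H (t q.2)

variable {α β γ : Type} {f g : (α → ℚ) → ℚ} {S T : (α → ℚ) → Prop}

theorem QP.congr (h : QP f) (e : ∀ v, f v = g v) : QP g := (funext e : f = g) ▸ h

theorem QP.nat (n : ℕ) : QP fun _ : α → ℚ => n := (QP.const n).congr fun _ => by simp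

theorem QP.num (n : ℕ) [n.AtLeastTwo] : QP fun _ : α → ℚ => (ofNat(n) : ℚ) := QP.nat n

theorem QP.one : QP fun _ : α → ℚ => 1 := (QP.const 1).congr fun _ => by simp

theorem QP.zero : QP fun _ : α → ℚ => 0 := (QP.const 0).congr fun _ => by simp

theorem QP.add (hf : QP f) (hg : QP g) : QP fun v => f v + g v :=
  (hf.sub (QP.zero.sub hg)).congr fun _ => by ring

theorem QP.pow (hf : QP f) : ∀ n : ℕ, QP fun v => f v ^ n
  | 0 => QP.one.congr fun _ => by simp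
  | n + 1 => ((hf.pow n).mul hf).congr fun _ => by ring

theorem QP.subst (hf : QP f) (G : (γ → ℚ) → α → ℚ) (hG : ∀ i, QP fun w => G w i) :
    QP fun w => f (G w) := by
  induction hf with
  | proj i => exact hG i
  | const n => exact QP.const n
  | sub _ _ h1 h2 => exact h1.sub h2
  | mul _ _ h1 h2 => exact h1.mul h2

theorem QP.re (hf : QP f) (e : α → γ) : QP fun w : γ → ℚ => f fun i => w (e i) :=
  hf.subst _ fun _ => QP.proj _

theorem QP.mv (hf : QP f) : ∃ P : MvPolynomial α ℤ, ∀ w, MvPolynomial.aeval w P = f w := by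
  induction hf with
  | proj i => exact ⟨MvPolynomial.X i, fun w => by simp⟩
  | const n => exact ⟨MvPolynomial.C n, fun w => by simp⟩
  | sub _ _ h1 h2 =>
    obtain ⟨P, a⟩ := h1
    obtain ⟨Q, b⟩ := h2
    exact ⟨P - Q, fun w => by simp [a, b]⟩
  | mul _ _ h1 h2 =>
    obtain ⟨P, a⟩ := h1
    obtain ⟨Q, b⟩ := h2
    exact ⟨P * Q, fun w => by simp [a, b]⟩

theorem HD.congr (h : HD S) (e : ∀ v, S v ↔ T v) : HD T :=
  (funext fun v => propext (e v) : S = T) ▸ h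

theorem HD.eq (hf : QP f) (hg : QP g) : HD fun v => f v = g v :=
  ⟨Empty, inferInstance, _, [], (hf.sub hg).re inl, fun v =>
    ⟨fun h => ⟨fun e => e.elim, sub_eq_zero.2 h, by simp⟩, fun ⟨_, h, _⟩ => sub_eq_zero.1 h⟩⟩

theorem HD.ht (hf : QP f) (hg : QP g) : HD fun v => H (f v) ≤ H (g v) := by
  have h1 := (QP.proj (inr false)).sub (hf.re (γ := α ⊕ Bool) inl)
  have h2 := (QP.proj (inr true)).sub (hg.re (γ := α ⊕ Bool) inl)
  refine ⟨Bool, inferInstance, _, [(false, true)], (h1.mul h1).add (h2.mul h2), fun v => ?_⟩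
  simp only [mul_self_add_mul_self_eq_zero, sub_eq_zero, List.mem_singleton, forall_eq,
    Sum.elim_inl, Sum.elim_inr]
  exact ⟨fun h => ⟨fun b => cond b (g v) (f v), ⟨rfl, rfl⟩, h⟩, fun ⟨t, ⟨a, b⟩, h⟩ => a ▸ b ▸ h⟩

theorem HD.subst (h : HD S) (G : (γ → ℚ) → α → ℚ) (hG : ∀ i, QP fun w => G w i) :
    HD fun w => S (G w) := by
  obtain ⟨β, hβ, p, L, hp, K⟩ := h
  refine ⟨β, hβ, fun w => p (Sum.elim (G fun i => w (inl i)) fun j => w (inr j)), L,
    hp.subst _ ?_, fun v => K _⟩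
  rintro (i | j)
  · exact (hG i).re inl
  · exact QP.proj _

theorem HD.re (h : HD S) (e : α → γ) : HD fun w : γ → ℚ => S fun i => w (e i) :=
  h.subst _ fun _ => QP.proj _

theorem HD.and (hS : HD S) (hT : HD T) : HD fun v => S v ∧ T v := by
  obtain ⟨β, hβ, p, L, hp, K⟩ := hS
  obtain ⟨γ, hγ, q, L', hq, K'⟩ := hT
  have h1 := hp.re (γ := α ⊕ (β ⊕ γ)) (Sum.map id inl)
  have h2 := hq.re (γ := α ⊕ (β ⊕ γ)) (Sum.map id inr)
  have e1 : ∀ (v : α → ℚ) (t : β ⊕ γ → ℚ),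
      (fun i => Sum.elim v t (Sum.map id inl i)) = Sum.elim v fun j => t (inl j) :=
    fun v t => funext fun i => by rcases i with i | i <;> rfl
  have e2 : ∀ (v : α → ℚ) (t : β ⊕ γ → ℚ),
      (fun i => Sum.elim v t (Sum.map id inr i)) = Sum.elim v fun j => t (inr j) :=
    fun v t => funext fun i => by rcases i with i | i <;> rfl
  refine ⟨β ⊕ γ, inferInstance, _, L.map (Prod.map inl inl) ++ L'.map (Prod.map inr inr),
    (h1.mul h1).add (h2.mul h2), fun v => ?_⟩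
  simp only [mul_self_add_mul_self_eq_zero, e1, e2, List.forall_mem_append, List.forall_mem_map,
    K, K']
  constructor
  · rintro ⟨⟨t, a, b⟩, ⟨s, c, d⟩⟩
    exact ⟨Sum.elim t s, ⟨a, c⟩, b, d⟩
  · rintro ⟨t, ⟨a, c⟩, b, d⟩
    exact ⟨⟨_, a, b⟩, ⟨_, c, d⟩⟩

theorem HD.exV [Finite γ] {R : (α → ℚ) → (γ → ℚ) → Prop}
    (h : HD fun w : α ⊕ γ → ℚ => R (fun i => w (inl i)) fun j => w (inr j)) :
    HD fun v => ∃ x, R v x := by
  obtain ⟨β, hβ, p, L, hp, K⟩ := h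
  have e1 : ∀ (v : α → ℚ) (t : γ ⊕ β → ℚ),
      (fun i => Sum.elim v t (Equiv.sumAssoc α γ β i)) =
        Sum.elim (Sum.elim v fun j => t (inl j)) fun j => t (inr j) :=
    fun v t => funext fun i => by rcases i with (i | i) | i <;> rfl
  refine ⟨γ ⊕ β, inferInstance, _, L.map (Prod.map inr inr), hp.re (Equiv.sumAssoc α γ β),
    fun v => ?_⟩
  simp only [e1, List.forall_mem_map]
  constructor
  · rintro ⟨x, hx⟩
    obtain ⟨t, a, b⟩ := (K (Sum.elim v x)).1 hx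
    exact ⟨Sum.elim x t, a, b⟩
  · rintro ⟨t, a, b⟩
    exact ⟨_, (K _).2 ⟨_, a, b⟩⟩

theorem HD.ex {R : (α → ℚ) → ℚ → Prop}
    (h : HD fun w : Option α → ℚ => R (fun i => w (some i)) (w none)) :
    HD fun v => ∃ x, R v x :=
  (HD.exV (γ := Unit) (R := fun v x => R v (x ())) (h.re fun o => o.elim (inr ()) inl)).congr
    fun _ => ⟨fun ⟨_, hx⟩ => ⟨_, hx⟩, fun ⟨x, hx⟩ => ⟨fun _ => x, hx⟩⟩

theorem HD.all {ι : Type} [Finite ι] {S : ι → (α → ℚ) → Prop} (h : ∀ i, HD (S i)) :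
    HD fun v => ∀ i, S i v := by
  classical
  have := Fintype.ofFinite ι
  have k : ∀ s : Finset ι, HD fun v => ∀ i ∈ s, S i v := fun s => by
    induction s using Finset.induction_on with
    | empty => exact (HD.eq QP.one QP.one).congr fun _ => by simp
    | insert a s ha ih => exact ((h a).and ih).congr fun _ => by simp
  exact (k Finset.univ).congr fun _ => by simp

theorem HD.comp₁ {R : ℚ → Prop} (h : HD fun v : Unit → ℚ => R (v ())) (hf : QP f) :
    HD fun v => R (f v) := h.subst (fun v _ => f v) fun _ => hf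

theorem four_sq {x : ℚ} (hx : 0 ≤ x) : ∃ t : Fin 4 → ℚ, x = t 0 ^ 2 + t 1 ^ 2 + t 2 ^ 2 + t 3 ^ 2 := by
  obtain ⟨a, b, c, d, h⟩ := Nat.sum_four_squares (x.num.toNat * x.den)
  have h1 : ((x.num.toNat : ℤ) : ℚ) = x * x.den := by
    rw [Int.toNat_of_nonneg (Rat.num_nonneg.2 hx), Rat.mul_den_eq_num]
  have h2 : (a : ℚ) ^ 2 + b ^ 2 + c ^ 2 + d ^ 2 = x * x.den * x.den := by
    rw [← h1]; exact_mod_cast h
  refine ⟨![a / x.den, b / x.den, c / x.den, d / x.den], ?_⟩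
  have h3 : (x.den : ℚ) ≠ 0 := by exact_mod_cast x.den_ne_zero
  simp only [Matrix.cons_val]
  field_simp
  linear_combination -h2

theorem HD.le (hf : QP f) (hg : QP g) : HD fun v => f v ≤ g v := by
  have h : HD fun v => ∃ t : Fin 4 → ℚ, g v - f v = t 0 ^ 2 + t 1 ^ 2 + t 2 ^ 2 + t 3 ^ 2 :=
    HD.exV (HD.eq ((hg.sub hf).re inl) (((((QP.proj _).pow 2).add ((QP.proj _).pow 2)).add
      ((QP.proj _).pow 2)).add ((QP.proj _).pow 2)))
  refine h.congr fun v => ⟨fun ⟨t, ht⟩ => ?_, fun k => four_sq (sub_nonneg.2 k)⟩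
  rw [← sub_nonneg, ht]
  positivity

theorem HD.final {n : ℕ} {S : (Fin n → ℚ) → Prop} (h : HD S) :
    ∃ (m : ℕ) (P : MvPolynomial (Fin n ⊕ Fin m) ℤ) (L : List (Fin m × Fin m)), ∀ a, S a ↔
      ∃ x : Fin m → ℚ, MvPolynomial.aeval (Sum.elim a x) P = 0 ∧
        ∀ q ∈ L, H (x q.1) ≤ H (x q.2) := by
  obtain ⟨β, hβ, p, L, hp, K⟩ := h
  obtain ⟨m, ⟨e⟩⟩ := Finite.exists_equiv_fin β
  obtain ⟨P, hP⟩ := (hp.re (γ := Fin n ⊕ Fin m) (Sum.map id e)).mv
  have e1 : ∀ (a : Fin n → ℚ) (x : Fin m → ℚ),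
      (fun i => Sum.elim a x (Sum.map id e i)) = Sum.elim a fun j => x (e j) :=
    fun v t => funext fun i => by rcases i with i | i <;> rfl
  refine ⟨m, P, L.map (Prod.map e e), fun a => ?_⟩
  simp only [hP, e1, K, List.forall_mem_map]
  constructor
  · rintro ⟨t, a, b⟩
    exact ⟨fun j => t (e.symm j), by simpa using a, by simpa using b⟩
  · rintro ⟨x, a, b⟩
    exact ⟨_, a, b⟩

end Vale.Agent.P027
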