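import Vale.Agent.P027.Seq

/-! Heights and real sizes of the multiples. -/

namespace Vale.Agent.P027

open Vale.Agent.P345

theorem H_eq {x : ℚ} (hx : 1 ≤ x) : H x = x.num.natAbs := by
  have h1 : ((x.den : ℤ) : ℚ) ≤ x.num := by
    rw [← x.mul_den_eq_num]
    exact le_mul_of_one_le_left (by positivity) hx
  have h2 : (x.den : ℤ) ≤ x.num := by exact_mod_cast h1
  exact max_eq_left (by omega)

theorem mul_nd {x y : ℚ} (h1 : x.num.natAbs.Coprime y.den) (h2 : y.num.natAbs.Coprime x.den) :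
    (x * y).num.natAbs = x.num.natAbs * y.num.natAbs ∧ (x * y).den = x.den * y.den := by
  have h : Nat.gcd (x.num * y.num).natAbs (x.den * y.den) = 1 := by
    rw [Int.natAbs_mul]
    exact (x.reduced.mul_right h1).mul_left (h2.mul_right y.reduced)
  rw [Rat.mul_num, Rat.mul_den, h]
  simp [Int.natAbs_mul]

theorem odd_ne {a : ℤ} (ha : Odd a) : a ≠ 0 := by
  obtain ⟨t, rfl⟩ := ha
  omega

theorem H_mul {a d : ℤ} (ha : Odd a) (hd : Odd d) : H (X a * X d) = H (X a) * H (X d) := by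
  have h1 := one_le_X (odd_ne ha)
  have h2 := one_le_X (odd_ne hd)
  rw [H_eq (one_le_mul_of_one_le_of_one_le h1 h2), H_eq h1, H_eq h2,
    (mul_nd (cop hd (odd_ne ha)) (cop ha (odd_ne hd))).1]

theorem H_mul8 {a d : ℤ} (ha : Odd a) (hd : Odd d) :
    H (8 * (X a * X d)) = 8 * (H (X a) * H (X d)) := by
  have h1 := one_le_mul_of_one_le_of_one_le (one_le_X (odd_ne ha)) (one_le_X (odd_ne hd))
  have k : ∀ {a : ℤ}, Odd a → Nat.Coprime (2 ^ 3) (X a).den := fun ha => by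
    have := cop ha one_ne_zero
    rw [X_one] at this
    exact Nat.Coprime.pow_left 3 this
  have h2 : (8 : ℚ).num.natAbs.Coprime (X a * X d).den := by
    rw [(mul_nd (cop hd (odd_ne ha)) (cop ha (odd_ne hd))).2]
    exact (k ha).mul_right (k hd)
  rw [H_eq (by linarith), (mul_nd h2 (Nat.coprime_one_right _)).1, ← H_eq h1, H_mul ha hd]
  rfl

theorem H_pos (x : ℚ) : 0 < H x := lt_max_of_lt_right x.den_pos

theorem H_log : ∃ c : ℝ, 22 / 27 * Real.log 2 ≤ c ∧ ∀ j : ℤ, j ≠ 0 →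
    c * (j : ℝ) ^ 2 - 2 / 3 * Real.log 2 ≤ Real.log (H (X j)) ∧
      Real.log (H (X j)) ≤ c * (j : ℝ) ^ 2 + 2 / 3 * Real.log 2 := by
  obtain ⟨c, hc⟩ := grp.1
  have l4 := log_four
  refine ⟨c, ?_, fun j hj => ?_⟩
  · have h1 := (abs_le.1 (hc 3)).2
    have h2 : Real.log (2 ^ 8) ≤ Real.log 338 := Real.log_le_log (by norm_num) (by norm_num)
    rw [Real.log_pow] at h2
    rw [X_three] at h1
    norm_num at h1 h2
    linarith
  · have h1 := abs_le.1 (hc j)
    have h2 : ((H (X j) : ℕ) : ℝ) = ((X j).num : ℝ) := by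
      rw [H_eq (one_le_X hj), Nat.cast_natAbs, abs_of_pos (Rat.num_pos.2 (X_pos j))]
    rw [h2]
    constructor <;> linarith

theorem H_lt {i j : ℤ} (hi : 0 < i) (h : i < j) : H (X i) < H (X j) := by
  obtain ⟨c, hc, hl⟩ := H_log
  have l2 : 0 < Real.log 2 := Real.log_pos (by norm_num)
  have h1 := (hl i hi.ne').2
  have h2 := (hl j (by omega)).1
  have h3 : (i : ℝ) ^ 2 + 3 ≤ (j : ℝ) ^ 2 := by
    have : i ^ 2 + 3 ≤ j ^ 2 := by nlinarith
    exact_mod_cast this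
  have h4 : Real.log (H (X i)) < Real.log (H (X j)) := by nlinarith
  have h5 := (Real.log_lt_log_iff (by exact_mod_cast H_pos _) (by exact_mod_cast H_pos _)).1 h4
  exact_mod_cast h5

theorem H_mono {i j : ℤ} (hi : 0 < i) (hj : 0 < j) : H (X i) ≤ H (X j) ↔ i ≤ j :=
  ⟨fun h => not_lt.1 fun k => (H_lt hj k).not_ge h,
    fun h => h.eq_or_lt.elim (fun e => e ▸ le_rfl) fun k => (H_lt hi k).le⟩

theorem H_sq {a d b e : ℤ} (ha : Odd a) (hd : Odd d) (hb : Odd b) (he : Odd e) :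
    H (X a * X d) ≤ H (8 * (X b * X e)) ↔ a ^ 2 + d ^ 2 ≤ b ^ 2 + e ^ 2 := by
  obtain ⟨c, hc, hl⟩ := H_log
  have l2 : 0 < Real.log 2 := Real.log_pos (by norm_num)
  have p : ∀ x, (0 : ℝ) < H x := fun x => by exact_mod_cast H_pos x
  have l8 : Real.log 8 = 3 * Real.log 2 := by
    rw [show (8 : ℝ) = 2 ^ 3 by norm_num, Real.log_pow]
    norm_num
  rw [H_mul ha hd, H_mul8 hb he, ← Nat.cast_le (α := ℝ)]
  push_cast
  rw [← Real.log_le_log_iff (mul_pos (p _) (p _)) (mul_pos (by norm_num) (mul_pos (p _) (p _))),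
    Real.log_mul (p _).ne' (p _).ne', Real.log_mul (by norm_num) (mul_pos (p _) (p _)).ne',
    Real.log_mul (p _).ne' (p _).ne', l8]
  obtain ⟨a1, a2⟩ := hl a (odd_ne ha)
  obtain ⟨d1, d2⟩ := hl d (odd_ne hd)
  obtain ⟨b1, b2⟩ := hl b (odd_ne hb)
  obtain ⟨e1, e2⟩ := hl e (odd_ne he)
  constructor
  · intro h
    by_contra k
    have m : ∀ {a : ℤ}, Odd a → a ^ 2 % 8 = 1 := by
      rintro _ ⟨t, rfl⟩
      obtain ⟨s, hs⟩ := Int.even_mul_succ_self t
      have : (2 * t + 1) ^ 2 = 8 * s + 1 := by linear_combination 4 * hs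
      omega
    have k1 : b ^ 2 + e ^ 2 + 8 ≤ a ^ 2 + d ^ 2 := by
      have := m ha; have := m hd; have := m hb; have := m he
      omega
    have k2 : (b : ℝ) ^ 2 + e ^ 2 + 8 ≤ a ^ 2 + d ^ 2 := by exact_mod_cast k1
    nlinarith
  · intro h
    have k2 : (a : ℝ) ^ 2 + d ^ 2 ≤ b ^ 2 + e ^ 2 := by exact_mod_cast h
    nlinarith

theorem le_H (n : ℕ) : n < H (X (n + 1)) := by
  induction n with
  | zero => exact H_pos _
  | succ n ih =>
    have := H_lt (i := n + 1) (j := (n + 1 : ℕ) + 1) (by omega) (by push_cast; omega)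
    omega

theorem X_unb (M : ℕ) : ∃ j : ℤ, 0 < j ∧ (M : ℚ) < X j := by
  by_contra hc
  push Not at hc
  have hM : (2 : ℚ) ≤ M := X_one ▸ hc 1 one_pos
  have hb : ∀ n : ℕ, ⌊X (n + 1) * M⌋₊ < M * M + 1 := fun n => by
    have h1 : X (n + 1) * M ≤ ((M * M : ℕ) : ℚ) := by
      push_cast
      exact mul_le_mul_of_nonneg_right (hc _ (by omega)) (by positivity)
    exact Nat.lt_succ_of_le (Nat.floor_le_of_le h1)
  have key : ∀ m n : ℕ, m < n → ⌊X (m + 1) * M⌋₊ ≠ ⌊X (n + 1) * M⌋₊ := by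
    intro m n hmn e
    obtain ⟨-, h1, -⟩ := X_pair (i := n + 1) (j := m + 1) (by omega) (by omega) (by omega) (by omega)
    have p1 := X_pos (m + 1)
    have p2 := X_pos (n + 1)
    have a1 := Nat.floor_le (a := X (m + 1) * M) (by positivity)
    have a2 := Nat.lt_floor_add_one (X (m + 1) * M)
    have a3 := Nat.floor_le (a := X (n + 1) * M) (by positivity)
    have a4 := Nat.lt_floor_add_one (X (n + 1) * M)
    rw [e] at a1 a2
    have a5 : ((X (n + 1) - X (m + 1)) * M) ^ 2 ≤ 1 := by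
      rw [sq_le_one_iff_abs_le_one, abs_le]
      constructor <;> linarith
    have a6 : X (n + 1 + (m + 1)) * X (n + 1 - (m + 1)) ≤ (M : ℚ) ^ 2 := by
      rw [sq]
      exact mul_le_mul (hc _ (by omega)) (hc _ (by omega)) (X_pos _).le (by positivity)
    have a7 := mul_le_mul_of_nonneg_left a6 (sq_nonneg (X (n + 1) - X (m + 1)))
    have a8 := mul_pos p2 p1
    rw [h1] at a7
    nlinarith
  obtain ⟨m, n, hne, e⟩ := Finite.exists_ne_map_eq_of_infinite
    fun n : ℕ => (⟨_, hb n⟩ : Fin (M * M + 1))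
  have e' := congrArg Fin.val e
  rcases lt_or_gt_of_ne hne with h | h
  · exact key m n h e'
  · exact key n m h e'.symm

theorem X_dense {r : ℚ} (hr : 3 ≤ r) : ∃ n : ℕ, r / 4 < X (n + 1) ∧ X (n + 1) ≤ r := by
  have key : ∀ k : ℕ, ∀ j : ℤ, 0 < j → r / 4 < X j → X j ≤ 2 ^ k * r →
      ∃ j : ℤ, 0 < j ∧ r / 4 < X j ∧ X j ≤ r := by
    intro k
    induction k with
    | zero => exact fun j h0 h1 h2 => ⟨j, h0, h1, by simpa using h2⟩
    | succ k ih =>
      intro j h0 h1 h2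
      by_cases h3 : X j ≤ r
      · exact ⟨j, h0, h1, h3⟩
      obtain ⟨y, e1, e2, e3⟩ := X_dbl h0.ne'
      have e4 : X (j + j) * (4 * y ^ 2) = (X j ^ 2 + 2) ^ 2 := by rw [e3]; field_simp; norm_num
      have hy : 0 < 4 * y ^ 2 := by positivity
      have hx : 3 < X j := by linarith [not_le.1 h3]
      have hx2 : 9 < X j ^ 2 := by nlinarith
      refine ih (j + j) (by omega) ?_ ?_
      · have : X j / 4 < X (j + j) := by
          refine lt_of_mul_lt_mul_right ?_ hy.le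
          rw [e4, e1]
          nlinarith
        linarith [not_le.1 h3]
      · have : X (j + j) ≤ X j / 2 := by
          refine le_of_mul_le_mul_right ?_ hy
          rw [e4, e1]
          nlinarith
        rw [pow_succ] at h2
        linarith
  obtain ⟨M, hM⟩ := exists_nat_ge r
  obtain ⟨j, h0, h1⟩ := X_unb M
  obtain ⟨k, hk⟩ := pow_unbounded_of_one_lt (X j) (show (1 : ℚ) < 2 by norm_num)
  have h2 : (0 : ℚ) < 2 ^ k := by positivity
  obtain ⟨i, i0, i1, i2⟩ := key k j h0 (by linarith) (by nlinarith)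
  obtain ⟨n, rfl⟩ : ∃ n : ℕ, i = n + 1 := ⟨(i - 1).toNat, by omega⟩
  exact ⟨n, i1, i2⟩

end Vale.Agent.P027
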