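import Vale.Agent.P345.Rec
import Vale.Agent.P027.Ht
import Vale.Agent.P027.HD

/-! The arithmetic of the indices is Diophantine with height comparisons. -/

namespace Vale.Agent.P027

open Sum Vale.Agent.P345

/-- The code of a natural number. -/
noncomputable def cd (n : ℕ) : ℚ := X (n + 1)

/-- Relations on natural numbers that are definable on the codes. -/
def ID {α : Type} (S : (α → ℕ) → Prop) : Prop :=
  ∃ S', HD S' ∧ ∀ v, S' (fun i => cd (v i)) ↔ S v

/-- Functions with a definable graph. -/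
def IDn {α : Type} (f : (α → ℕ) → ℕ) : Prop :=
  ID fun v : Option α → ℕ => f (fun i => v (some i)) = v none

variable {α β γ : Type} {f g : (α → ℕ) → ℕ} {S T : (α → ℕ) → Prop}

theorem cd_inj {m n : ℕ} : cd m = cd n ↔ m = n :=
  ⟨fun h => by have := X_inj (by omega) (by omega) h; omega, fun h => h ▸ rfl⟩

theorem one_le_cd (n : ℕ) : 1 ≤ cd n := one_le_X (by omega)

theorem hd_dom : HD fun v : Unit → ℚ => ∃ n, v () = cd n := by
  have h : HD fun v : Unit → ℚ => ∃ y, 1 ≤ v () ∧ y ^ 2 = v () ^ 3 - 2 * v () :=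
    HD.ex ((HD.le QP.one (QP.proj _)).and (HD.eq ((QP.proj _).pow 2)
      (((QP.proj _).pow 3).sub ((QP.num 2).mul (QP.proj _)))))
  refine h.congr fun v => ⟨fun ⟨y, h1, h2⟩ => X_surj (by linarith) h2, fun ⟨n, hn⟩ => ?_⟩
  obtain ⟨y, hy, -⟩ := X_dbl (j := n + 1) (by omega)
  exact ⟨y, hn ▸ one_le_cd n, hn ▸ hy⟩

theorem ID.congr (h : ID S) (e : ∀ v, S v ↔ T v) : ID T :=
  (funext fun v => propext (e v) : S = T) ▸ h

theorem IDn.congr (h : IDn f) (e : ∀ v, f v = g v) : IDn g := (funext e : f = g) ▸ h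

theorem ID.re (h : ID S) (e : α → γ) : ID fun w : γ → ℕ => S fun i => w (e i) := by
  obtain ⟨S', h1, h2⟩ := h
  exact ⟨_, h1.re e, fun v => h2 _⟩

theorem ID.and (hS : ID S) (hT : ID T) : ID fun v => S v ∧ T v := by
  obtain ⟨S', h1, h2⟩ := hS
  obtain ⟨T', h3, h4⟩ := hT
  exact ⟨_, h1.and h3, fun v => and_congr (h2 v) (h4 v)⟩

theorem ID.all {ι : Type} [Finite ι] {S : ι → (α → ℕ) → Prop} (h : ∀ i, ID (S i)) :
    ID fun v => ∀ i, S i v := by
  choose S' h1 h2 using h
  exact ⟨_, HD.all h1, fun v => forall_congr' fun i => h2 i v⟩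

theorem ID.exV [Finite γ] {R : (α → ℕ) → (γ → ℕ) → Prop}
    (h : ID fun w : α ⊕ γ → ℕ => R (fun i => w (inl i)) fun j => w (inr j)) :
    ID fun v => ∃ x, R v x := by
  obtain ⟨S', h1, h2⟩ := h
  have e : ∀ (v : α → ℕ) (x : γ → ℕ), Sum.elim (fun i => cd (v i)) (fun j => cd (x j)) =
      fun i => cd (Sum.elim v x i) := fun v x => funext fun i => by rcases i with i | i <;> rfl
  have h3 : HD fun w : α ⊕ γ → ℚ => S' (Sum.elim (fun i => w (inl i)) fun j => w (inr j)) :=
    h1.congr fun w => by rw [show (Sum.elim (fun i => w (inl i)) fun j => w (inr j)) = w from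
      funext fun i => by rcases i with i | i <;> rfl]
  refine ⟨_, HD.exV (R := fun v x => (∀ j, ∃ n, x j = cd n) ∧ S' (Sum.elim v x))
    ((HD.all fun j => hd_dom.re fun _ => inr j).and h3), fun v => ⟨?_, ?_⟩⟩
  · rintro ⟨x, a, b⟩
    choose n hn using a
    obtain rfl : x = fun j => cd (n j) := funext hn
    exact ⟨n, (h2 (Sum.elim v n)).1 (e v n ▸ b)⟩
  · rintro ⟨n, b⟩
    exact ⟨fun j => cd (n j), fun j => ⟨_, rfl⟩, e v n ▸ (h2 (Sum.elim v n)).2 b⟩

theorem ID.ex {R : (α → ℕ) → ℕ → Prop}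
    (h : ID fun w : Option α → ℕ => R (fun i => w (some i)) (w none)) :
    ID fun v => ∃ x, R v x :=
  (ID.exV (γ := Unit) (R := fun v x => R v (x ())) (h.re fun o => o.elim (inr ()) inl)).congr
    fun _ => ⟨fun ⟨_, hx⟩ => ⟨_, hx⟩, fun ⟨x, hx⟩ => ⟨fun _ => x, hx⟩⟩

theorem IDn.re (h : IDn f) (e : α → γ) : IDn fun w : γ → ℕ => f fun i => w (e i) :=
  ID.re h (Option.map e)

theorem ID.subst [Finite β] {R : (β → ℕ) → Prop} (hR : ID R) (F : (α → ℕ) → β → ℕ)
    (hF : ∀ b, IDn fun v => F v b) : ID fun v => R (F v) := by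
  have h1 : ID fun w : α ⊕ β → ℕ =>
      R (fun j => w (inr j)) ∧ ∀ b, F (fun i => w (inl i)) b = w (inr b) :=
    (hR.re inr).and (ID.all fun b => ID.re (hF b) fun o => o.elim (inr b) inl)
  refine (ID.exV (R := fun v x => R x ∧ ∀ b, F v b = x b) h1).congr fun v =>
    ⟨fun ⟨x, a, b⟩ => (funext b : F v = x) ▸ a, fun a => ⟨_, a, fun _ => rfl⟩⟩

theorem ID.eqv (i j : α) : ID fun v : α → ℕ => v i = v j :=
  ⟨_, HD.eq (QP.proj i) (QP.proj j), fun _ => cd_inj⟩

theorem IDn.proj (i : α) : IDn fun v => v i := ID.eqv _ _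

theorem IDn.const (n : ℕ) : IDn fun _ : α → ℕ => n := by
  refine ⟨_, HD.eq (QP.const (cd n).num) ((QP.proj none).mul (QP.nat (cd n).den)), fun v => ?_⟩
  rw [← Rat.mul_den_eq_num, mul_left_inj' (by exact_mod_cast (cd n).den_ne_zero), cd_inj]

theorem ID.eq (hf : IDn f) (hg : IDn g) : ID fun v => f v = g v :=
  (ID.eqv false true).subst (fun v b => cond b (g v) (f v)) fun b => by
    cases b
    exacts [hf, hg]

theorem id_add : ID fun v : Fin 3 → ℕ => v 0 + v 1 + 1 = v 2 := by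
  have p : ∀ i : Fin 3, QP fun w : Fin 3 → ℚ => w i := QP.proj
  have h : QP fun w : Fin 3 → ℚ => TT (w 0) (w 1) (w 2) :=
    (((((p 0).sub (p 1)).pow 2).mul ((p 2).pow 2)).sub ((((QP.num 2).mul
      (((p 0).mul (p 1)).sub (QP.num 2))).mul ((p 0).add (p 1))).mul (p 2))).add
      ((((p 0).mul (p 1)).add (QP.num 2)).pow 2)
  refine ⟨_, (HD.eq h QP.zero).and ((HD.ht (p 0) (p 2)).and (HD.ht (p 1) (p 2))), fun v => ?_⟩
  simp only [cd]
  rw [H_mono (by omega) (by omega), H_mono (by omega) (by omega)]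
  constructor
  · rintro ⟨h1, h2, h3⟩
    rcases T_imp (by omega) (by omega) (by omega) h1 with e | ⟨e0, e⟩
    · have := X_inj (by omega) (by omega) e
      omega
    · rcases lt_or_gt_of_ne e0 with k | k
      · have := X_inj (by omega) (by omega) (e.trans (X_neg _).symm)
        omega
      · have := X_inj (by omega) (by omega) e
        omega
  · intro e
    refine ⟨?_, by omega, by omega⟩
    rw [show ((v 2 : ℕ) : ℤ) + 1 = (v 0 + 1) + (v 1 + 1) by omega]
    exact T_add (by omega) (by omega) (by omega)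

theorem IDn.add1 (hf : IDn f) (hg : IDn g) : IDn fun v => f v + g v + 1 :=
  id_add.subst (fun v : Option α → ℕ =>
    ![f fun i => v (some i), g fun i => v (some i), v none]) fun b => by
      fin_cases b
      exacts [hf.re some, hg.re some, IDn.proj none]

theorem IDn.add (hf : IDn f) (hg : IDn g) : IDn fun v => f v + g v :=
  (ID.eq ((hf.re some).add1 (hg.re some)) ((IDn.proj none).add1 (IDn.const 0))).congr
    fun _ => by beta_reduce; omega

theorem id_tri (hf : IDn f) (hg : IDn g) : ID fun v => 2 * g v = f v * f v + 3 * f v := by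
  have p : ∀ i : Fin 4, QP fun w : Fin 4 → ℚ => w i := QP.proj
  have h : ID fun v : Fin 4 → ℕ => H (cd (v 0) * cd (v 1)) ≤ H (8 * (cd (v 2) * cd (v 3))) :=
    ⟨_, HD.ht ((p 0).mul (p 1)) ((QP.num 8).mul ((p 2).mul (p 3))), fun _ => Iff.rfl⟩
  have a := (hg.add hg).add (IDn.const 2)
  have b := hg.add hg
  have c := (hf.add hf).add (IDn.const 2)
  have d : IDn fun _ : α → ℕ => 0 := IDn.const 0
  have h1 := h.subst (fun v => ![g v + g v + 2, 0, g v + g v, f v + f v + 2]) fun i => by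
    fin_cases i
    exacts [a, d, b, c]
  have h2 := h.subst (fun v => ![g v + g v, f v + f v + 2, g v + g v + 2, 0]) fun i => by
    fin_cases i
    exacts [b, c, a, d]
  refine (h1.and h2).congr fun v => ?_
  have o1 : Odd (((g v + g v + 2 : ℕ) : ℤ) + 1) := ⟨g v + 1, by push_cast; ring⟩
  have o2 : Odd (((0 : ℕ) : ℤ) + 1) := ⟨0, by simp⟩
  have o3 : Odd (((g v + g v : ℕ) : ℤ) + 1) := ⟨g v, by push_cast; ring⟩
  have o4 : Odd (((f v + f v + 2 : ℕ) : ℤ) + 1) := ⟨f v + 1, by push_cast; ring⟩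
  simp only [Matrix.cons_val, cd]
  rw [H_sq o1 o2 o3 o4, H_sq o3 o4 o1 o2]
  zify
  constructor
  · rintro ⟨k1, k2⟩
    linarith
  · intro k
    constructor <;> linarith

theorem IDn.mul (hf : IDn f) (hg : IDn g) : IDn fun v => f v * g v := by
  have F := (hf.re some).re (inl : Option α → Option α ⊕ Fin 3)
  have G := (hg.re some).re (inl : Option α → Option α ⊕ Fin 3)
  have p : ∀ i : Fin 3, IDn fun w : Option α ⊕ Fin 3 → ℕ => w (inr i) := fun i => IDn.proj _
  have h := ID.exV (γ := Fin 3) (R := fun (v : Option α → ℕ) x =>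
      2 * x 0 = (f fun i => v (some i)) * (f fun i => v (some i)) + 3 * (f fun i => v (some i)) ∧
      2 * x 1 = (g fun i => v (some i)) * (g fun i => v (some i)) + 3 * (g fun i => v (some i)) ∧
      2 * x 2 = ((f fun i => v (some i)) + g fun i => v (some i)) *
        ((f fun i => v (some i)) + g fun i => v (some i)) +
        3 * ((f fun i => v (some i)) + g fun i => v (some i)) ∧ x 2 = x 0 + x 1 + v none)
    ((id_tri F (p 0)).and ((id_tri G (p 1)).and ((id_tri (F.add G) (p 2)).and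
      (ID.eq (p 2) (((p 0).add (p 1)).add (IDn.proj (inl none)))))))
  refine h.congr fun v => ?_
  beta_reduce
  generalize (f fun i => v (some i)) = a
  generalize (g fun i => v (some i)) = b
  constructor
  · rintro ⟨x, h1, h2, h3, h4⟩
    nlinarith
  · intro e
    obtain ⟨s, hs⟩ := Nat.even_mul_succ_self a
    obtain ⟨t, ht⟩ := Nat.even_mul_succ_self b
    refine ⟨![s + a, t + b, s + a + (t + b) + v none], ?_, ?_, ?_, rfl⟩ <;>
      simp only [Matrix.cons_val] <;> nlinarith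

theorem id_poly {p : (α → ℕ) → ℤ} (hp : IsPoly p) :
    ∃ f g : (α → ℕ) → ℕ, IDn f ∧ IDn g ∧ ∀ v, p v = f v - g v := by
  induction hp with
  | proj i => exact ⟨_, _, IDn.proj i, IDn.const 0, fun v => by simp⟩
  | const n => exact ⟨_, _, IDn.const n.toNat, IDn.const (-n).toNat, fun v => by simp⟩
  | sub _ _ h1 h2 =>
    obtain ⟨f, g, a, b, c⟩ := h1
    obtain ⟨f', g', a', b', c'⟩ := h2
    exact ⟨_, _, a.add b', b.add a', fun v => by beta_reduce; rw [c, c']; push_cast; ring⟩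
  | mul _ _ h1 h2 =>
    obtain ⟨f, g, a, b, c⟩ := h1
    obtain ⟨f', g', a', b', c'⟩ := h2
    exact ⟨_, _, (a.mul a').add (b.mul b'), (a.mul b').add (b.mul a'),
      fun v => by beta_reduce; rw [c, c']; push_cast; ring⟩

theorem id_of_sf (h : SF S) : ID S := by
  obtain ⟨β, hβ, p, hp, K⟩ := h
  obtain ⟨f, g, a, b, c⟩ := id_poly hp
  refine (ID.exV (R := fun v t => p v t = 0) ((ID.eq a b).congr fun w => ?_)).congr
    fun v => (K v).1.symm
  rw [c w, sub_eq_zero, Nat.cast_inj]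

end Vale.Agent.P027
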