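import Vale.Agent.P027.Idx

/-! The integers are Diophantine over the rationals with height comparisons. -/

namespace Vale.Agent.P027

open Sum Vale.Agent.P345

/-- One step of the recursion for unreduced fractions. -/
def st (s : (ℕ × ℕ) × ℕ × ℕ) : (ℕ × ℕ) × ℕ × ℕ :=
  (s.2, (2 * s.2.1 + 2 * s.2.2) * (2 * s.2.1 + 2 * s.2.2) * s.1.2,
    (s.2.1 - 2 * s.2.2 + (2 * s.2.2 - s.2.1)) * (s.2.1 - 2 * s.2.2 + (2 * s.2.2 - s.2.1)) * s.1.1)

/-- Unreduced fractions for two consecutive codes. -/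
def fr (k : ℕ) : (ℕ × ℕ) × ℕ × ℕ := st^[k] ((2, 1), 9, 4)

theorem fr_prim : Primrec fr := by
  open Primrec in
  have a : Primrec fun s : (ℕ × ℕ) × ℕ × ℕ => s.2.1 := fst.comp snd
  open Primrec in
  have b : Primrec fun s : (ℕ × ℕ) × ℕ × ℕ => 2 * s.2.2 := nat_mul.comp (const 2) (snd.comp snd)
  open Primrec in
  have c := nat_add.comp (nat_mul.comp (const 2) a) b
  open Primrec in
  have d := nat_add.comp (nat_sub.comp a b) (nat_sub.comp b a)
  open Primrec in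
  have e : Primrec st := snd.pair ((nat_mul.comp (nat_mul.comp c c) (snd.comp fst)).pair
    (nat_mul.comp (nat_mul.comp d d) (fst.comp fst)))
  exact Primrec.nat_iterate Primrec.id (Primrec.const _) (e.comp Primrec.snd).to₂

theorem fr_spec (k : ℕ) : ((fr k).1.1 = cd k * (fr k).1.2 ∧ 0 < (fr k).1.2) ∧
    (fr k).2.1 = cd (k + 1) * (fr k).2.2 ∧ 0 < (fr k).2.2 := by
  induction k with
  | zero =>
    have h1 : cd 0 = 2 := X_one
    have h2 : cd 1 = 9 / 4 := X_two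
    simp only [fr, Function.iterate_zero, id, zero_add, h1, h2]
    norm_num
  | succ k ih =>
    obtain ⟨⟨a1, a2⟩, a3, a4⟩ := ih
    have e : fr (k + 1) = st (fr k) := Function.iterate_succ_apply' _ _ _
    rw [e]
    generalize fr k = s at a1 a2 a3 a4
    obtain ⟨⟨n0, d0⟩, n1, d1⟩ := s
    simp only [st] at *
    obtain ⟨h0, h1, -⟩ := X_pair (i := (k + 1 : ℕ) + 1) (j := 1) (by omega) (by omega) (by omega)
      (by omega)
    have e1 : X ((k + 1 : ℕ) + 1 + 1) = cd (k + 1 + 1) := by rw [cd]; push_cast; rfl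
    have e2 : X ((k + 1 : ℕ) + 1 - 1) = cd k := by rw [cd]; congr 1; push_cast; ring
    rw [X_one, ← cd] at h0
    rw [X_one, e1, e2, ← cd] at h1
    have hD : (((n1 - 2 * d1 + (2 * d1 - n1)) * (n1 - 2 * d1 + (2 * d1 - n1)) : ℕ) : ℤ) =
        (n1 - 2 * d1) ^ 2 := by
      rcases le_total n1 (2 * d1) with h | h
      · rw [Nat.sub_eq_zero_of_le h]; push_cast [h]; ring
      · rw [Nat.sub_eq_zero_of_le h]; push_cast [h]; ring
    have hD' : (((n1 - 2 * d1 + (2 * d1 - n1)) * (n1 - 2 * d1 + (2 * d1 - n1)) : ℕ) : ℚ) =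
        (n1 - 2 * d1) ^ 2 := by exact_mod_cast hD
    have d1' : (0 : ℚ) < d1 := by exact_mod_cast a4
    have d0' : (0 : ℚ) < d0 := by exact_mod_cast a2
    have c0 := one_le_cd k
    refine ⟨⟨a3, a4⟩, ?_, ?_⟩
    · rw [Nat.cast_mul _ n0, hD']
      push_cast
      rw [a1, a3]
      linear_combination -(d1 : ℚ) ^ 2 * d0 * h1
    · rw [← Nat.cast_pos (α := ℚ), Nat.cast_mul _ n0, hD', a1, a3, ← sub_mul]
      have := sub_ne_zero.2 h0
      positivity

theorem sfn_prim {α : Type} {F : ℕ → ℕ} (hF : Primrec F) (i : α) : SFn fun v : α → ℕ => F (v i) :=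
  (SF.partrec (Nat.Partrec.of_primrec (Primrec.nat_iff.1 hF)) (SFn.proj (some i))
    (SFn.proj none)).congr fun v => by simp [eq_comm]

theorem H_cd (k : ℕ) : H (cd k) = (fr k).1.1 / Nat.gcd (fr k).1.1 (fr k).1.2 := by
  obtain ⟨⟨a1, a2⟩, -⟩ := fr_spec k
  generalize (fr k).1.1 = n at *
  generalize (fr k).1.2 = d at *
  have g0 : 0 < Nat.gcd n d := Nat.gcd_pos_of_pos_right _ a2
  have hc := Nat.coprime_div_gcd_div_gcd g0
  have b0 : 0 < d / Nat.gcd n d := Nat.div_pos (Nat.gcd_le_right _ a2) g0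
  have e : cd k = (((n / Nat.gcd n d : ℕ) : ℤ) : ℚ) / ((d / Nat.gcd n d : ℕ) : ℤ) := by
    rw [Int.cast_natCast, Int.cast_natCast, Nat.cast_div (Nat.gcd_dvd_left _ _) (by positivity),
      Nat.cast_div (Nat.gcd_dvd_right _ _) (by positivity), a1]
    field_simp
  rw [H_eq (one_le_cd k), e, Rat.num_div_eq_of_coprime (by exact_mod_cast b0)
    (by rwa [Int.natAbs_natCast, Int.natAbs_natCast]), Int.natAbs_natCast]

theorem id_size : ID fun v : Bool → ℕ => (H (cd (v true)) : ℚ) < 8 * cd (v false) := by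
  have n := fun i : Bool => sfn_prim (Primrec.fst.comp (Primrec.fst.comp fr_prim)) i
  have d := fun i : Bool => sfn_prim (Primrec.snd.comp (Primrec.fst.comp fr_prim)) i
  refine (id_of_sf (SF.lt (((n true).div ((n true).gcd (d true))).mul (d false))
    ((SFn.const 8).mul (n false)))).congr fun v => ?_
  obtain ⟨⟨a1, a2⟩, -⟩ := fr_spec (v false)
  rw [← H_cd, ← Nat.cast_lt (α := ℚ)]
  push_cast
  rw [a1, ← mul_assoc, mul_lt_mul_iff_left₀ (by exact_mod_cast a2)]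

/-- A definable set of integers. -/
def G (x : ℚ) : Prop :=
  ∃ v : Bool → ℕ, cd (v false) ≤ x ^ 3 ∧ H (x ^ 3) ≤ H (cd (v true)) ∧
    (H (cd (v true)) : ℚ) < 8 * cd (v false)

theorem hd_G : HD fun v : Unit → ℚ => G (v ()) := by
  obtain ⟨S', h1, h2⟩ := id_size
  have x3 : QP fun w : Unit ⊕ Bool → ℚ => w (inl ()) ^ 3 := (QP.proj _).pow 3
  refine (HD.exV (R := fun (v : Unit → ℚ) (u : Bool → ℚ) => (∀ j, ∃ n, u j = cd n) ∧
    u false ≤ v () ^ 3 ∧ H (v () ^ 3) ≤ H (u true) ∧ S' u)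
    ((HD.all fun j => hd_dom.re fun _ => inr j).and ((HD.le (QP.proj _) x3).and
      ((HD.ht x3 (QP.proj _)).and (h1.re inr))))).congr fun v => ⟨?_, ?_⟩
  · rintro ⟨u, a, b, c, d⟩
    choose n hn using a
    obtain rfl : u = fun j => cd (n j) := funext hn
    exact ⟨n, b, c, (h2 n).1 d⟩
  · rintro ⟨n, b, c, d⟩
    exact ⟨fun j => cd (n j), fun j => ⟨_, rfl⟩, b, c, (h2 n).2 d⟩

theorem G.int {x : ℚ} (h : G x) : ∃ z : ℤ, x = z := by
  obtain ⟨v, h1, h2, h3⟩ := h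
  have h4 : 1 ≤ x ^ 3 := (one_le_cd _).trans h1
  have h5 : ((H (x ^ 3) : ℕ) : ℚ) = x ^ 3 * (x.den ^ 3 : ℕ) := by
    rw [H_eq h4, Nat.cast_natAbs, abs_of_pos (Rat.num_pos.2 (by linarith)), ← Rat.den_pow,
      Rat.mul_den_eq_num]
  have h6 : ((H (x ^ 3) : ℕ) : ℚ) ≤ H (cd (v true)) := by exact_mod_cast h2
  have h7 : ((x.den ^ 3 : ℕ) : ℚ) < (2 ^ 3 : ℕ) := by
    refine lt_of_mul_lt_mul_left (a := x ^ 3) ?_ (by linarith)
    push_cast at h5 ⊢
    linarith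
  have h8 : x.den < 2 := lt_of_pow_lt_pow_left₀ 3 (by norm_num) (by exact_mod_cast h7)
  exact ⟨x.num, (Rat.coe_int_num_of_den_eq_one (by have := x.den_pos; omega)).symm⟩

theorem G_ex (z : ℕ) : ∃ n : ℕ, G n ∧ G (n + z : ℕ) := by
  obtain ⟨a, ha⟩ : ∃ a, a = 2 * (10 * (z + 1)) ^ 3 := ⟨_, rfl⟩
  have hA : a < H (cd a) := le_H a
  obtain ⟨A, hAe⟩ : ∃ A, A = H (cd a) := ⟨_, rfl⟩
  rw [← hAe] at hA
  have h6 : 6 ≤ a := by
    have := Nat.pow_le_pow_left (show 10 ≤ 10 * (z + 1) by omega) 3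
    omega
  obtain ⟨i, i1, i2⟩ := X_dense (r := A / 2) (by
    have : ((6 : ℕ) : ℚ) ≤ A := by exact_mod_cast (by omega : 6 ≤ A)
    push_cast at this
    linarith)
  have ex : ∃ n : ℕ, A ≤ 2 * n ^ 3 := ⟨A, by nlinarith [Nat.le_self_pow (three_ne_zero) A]⟩
  have n1 := Nat.find_spec ex
  have n2 : 10 * (z + 1) < Nat.find ex := by
    refine lt_of_pow_lt_pow_left₀ 3 (Nat.zero_le _) ?_
    omega
  obtain ⟨m, hm⟩ : ∃ m, Nat.find ex = m + 1 := ⟨Nat.find ex - 1, by omega⟩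
  have n3 := not_le.1 (Nat.find_min ex (show m < Nat.find ex by omega))
  rw [hm] at n1 n2
  have n4 : (m + 1 + z) ^ 3 ≤ A := by
    have := Nat.pow_le_pow_left (show 10 * (m + 1 + z) ≤ 11 * m by omega) 3
    rw [mul_pow, mul_pow] at this
    omega
  have key : ∀ n : ℕ, m + 1 ≤ n → n ≤ m + 1 + z → G n := fun n k1 k2 => by
    have k3 := Nat.pow_le_pow_left k1 3
    have k4 := Nat.pow_le_pow_left k2 3
    have k5 : (A : ℚ) ≤ 2 * (n : ℚ) ^ 3 := by exact_mod_cast (by omega : A ≤ 2 * n ^ 3)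
    refine ⟨fun b => cond b a i, ?_, ?_, ?_⟩
    · change X (i + 1) ≤ _
      linarith
    · change _ ≤ H (cd a)
      rw [← hAe, ← Nat.cast_pow, H]
      simp only [Rat.num_natCast, Rat.den_natCast, Int.natAbs_natCast]
      omega
    · change ((H (cd a) : ℕ) : ℚ) < 8 * X (i + 1)
      rw [← hAe]
      linarith
  exact ⟨m + 1, key _ le_rfl (by omega), key _ (by omega) le_rfl⟩

theorem hd_nat : HD fun v : Unit → ℚ => ∃ n : ℕ, v () = n := by
  refine (HD.exV (R := fun (v : Unit → ℚ) (u : Bool → ℚ) => (∀ j, G (u j)) ∧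
    v () = u true - u false ∧ 0 ≤ v ()) ((HD.all fun j => hd_G.re fun _ => inr j).and
      ((HD.eq (QP.proj _) ((QP.proj _).sub (QP.proj _))).and
        (HD.le QP.zero (QP.proj _))))).congr fun v => ⟨?_, ?_⟩
  · rintro ⟨u, a, b, c⟩
    obtain ⟨x, hx⟩ := (a true).int
    obtain ⟨y, hy⟩ := (a false).int
    rw [b, hx, hy] at c
    have c' : 0 ≤ x - y := by exact_mod_cast c
    refine ⟨(x - y).toNat, ?_⟩
    rw [b, hx, hy, ← Int.cast_natCast, Int.toNat_of_nonneg c', Int.cast_sub]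
  · rintro ⟨z, hz⟩
    obtain ⟨n, a, b⟩ := G_ex z
    refine ⟨fun j => cond j (n + z : ℕ) n, fun j => ?_, by simp [hz], by simp [hz]⟩
    cases j
    exacts [a, b]

theorem hd_int : HD fun v : Fin 1 → ℚ => ∃ z : ℤ, v 0 = z := by
  refine (HD.exV (R := fun (v : Fin 1 → ℚ) (u : Bool → ℚ) => (∀ j, ∃ n : ℕ, u j = n) ∧
    v 0 = u true - u false) ((HD.all fun j => hd_nat.re fun _ => inr j).and
      (HD.eq (QP.proj _) ((QP.proj _).sub (QP.proj _))))).congr fun v => ⟨?_, ?_⟩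
  · rintro ⟨u, a, b⟩
    obtain ⟨x, hx⟩ := a true
    obtain ⟨y, hy⟩ := a false
    exact ⟨x - y, by rw [b, hx, hy]; simp⟩
  · rintro ⟨z, hz⟩
    refine ⟨fun j => cond j (z.toNat : ℚ) ((-z).toNat : ℚ), fun j => by cases j <;> simp, ?_⟩
    change v 0 = ((z.toNat : ℤ) : ℚ) - (((-z).toNat : ℤ) : ℚ)
    rw [hz, ← Int.cast_sub, Int.toNat_sub_toNat_neg]

theorem qp_poly {α : Type} {p : (α → ℕ) → ℤ} (hp : IsPoly p) :
    ∃ q, QP q ∧ ∀ w : α → ℕ, q (fun i => w i) = p w := by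
  induction hp with
  | proj i => exact ⟨_, QP.proj i, fun w => by simp⟩
  | const n => exact ⟨_, QP.const n, fun w => rfl⟩
  | sub _ _ h1 h2 =>
    obtain ⟨P, a, c⟩ := h1
    obtain ⟨Q, b, d⟩ := h2
    exact ⟨_, a.sub b, fun w => by simp [c, d]⟩
  | mul _ _ h1 h2 =>
    obtain ⟨P, a, c⟩ := h1
    obtain ⟨Q, b, d⟩ := h2
    exact ⟨_, a.mul b, fun w => by simp [c, d]⟩

theorem hd_of_sf {α : Type} [Finite α] {S : (α → ℕ) → Prop} (h : SF S) :
    HD fun a : α → ℚ => ∃ b, S b ∧ a = fun i => (b i : ℚ) := by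
  obtain ⟨β, hβ, p, hp, K⟩ := h
  obtain ⟨q, q1, q2⟩ := qp_poly hp
  have e : ∀ (v : α → ℕ) (x : β → ℕ), Sum.elim (fun i => (v i : ℚ)) (fun j => (x j : ℚ)) =
      fun i => ((Sum.elim v x i : ℕ) : ℚ) :=
    fun v x => funext fun i => by rcases i with i | i <;> rfl
  have h3 : QP fun w : α ⊕ β → ℚ => q (Sum.elim (fun i => w (inl i)) fun j => w (inr j)) :=
    q1.congr fun w => by rw [show (Sum.elim (fun i => w (inl i)) fun j => w (inr j)) = w from
      funext fun i => by rcases i with i | i <;> rfl]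
  refine (HD.exV (R := fun (v : α → ℚ) (u : β → ℚ) => (∀ i, ∃ n : ℕ, v i = n) ∧
    (∀ j, ∃ n : ℕ, u j = n) ∧ q (Sum.elim v u) = 0)
    ((HD.all fun i => hd_nat.re fun _ => inl i).and ((HD.all fun j => hd_nat.re fun _ => inr j).and
      (HD.eq h3 QP.zero)))).congr fun v => ⟨?_, ?_⟩
  · rintro ⟨u, a, b, c⟩
    choose m hm using a
    choose n hn using b
    obtain rfl : v = fun j => (m j : ℚ) := funext hm
    obtain rfl : u = fun j => (n j : ℚ) := funext hn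
    rw [e, q2] at c
    exact ⟨m, (K m).1.2 ⟨n, by exact_mod_cast c⟩, rfl⟩
  · rintro ⟨m, a, rfl⟩
    obtain ⟨n, hn⟩ := (K m).1.1 a
    refine ⟨fun j => n j, fun _ => ⟨_, rfl⟩, fun _ => ⟨_, rfl⟩, ?_⟩
    rw [e, q2]
    exact_mod_cast hn

theorem undec : ∃ S : ℕ → Prop, REPred (fun v : Fin 1 → ℕ => S (v 0)) ∧ ¬ ComputablePred S := by
  refine ⟨fun a => ((Denumerable.ofNat Nat.Partrec.Code a).eval 0).Dom, ?_, fun h => ?_⟩
  · exact (Nat.Partrec.Code.eval_part.comp ((Computable.ofNat _).comp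
      (Computable.fin_app.comp Computable.id (Computable.const 0))) (Computable.const 0)).dom_re
  · obtain ⟨i, h⟩ := h
    refine ComputablePred.halting_problem 0 ⟨Classical.decPred _, ?_⟩
    exact (h.comp Computable.encode).of_eq fun c => by simp

end Vale.Agent.P027
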