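import Vale.Agent.P345.Curve
import Vale.Agent.P027.Defs

/-! The multiples of the point `(2, 2)` on `y ^ 2 = x ^ 3 - 2 * x`. -/

namespace Vale.Agent.P027

open Vale.Agent.P345 WeierstrassCurve WeierstrassCurve.Affine

/-- The first coordinate of the multiples of the generator. -/
noncomputable def X (j : ℤ) : ℚ := xc (j • P0).1

/-- The addition law on first coordinates. -/
def TT (u v w : ℚ) : ℚ := (u - v) ^ 2 * w ^ 2 - 2 * (u * v - 2) * (u + v) * w + (u * v + 2) ^ 2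

theorem X_pos (j : ℤ) : 0 < X j := (j • P0).2

theorem X_neg (j : ℤ) : X (-j) = X j := by simp [X, xc_neg]

theorem X_one : X 1 = 2 := by simp [X, P0]

theorem log_four : Real.log 4 = 2 * Real.log 2 := by
  rw [show (4 : ℝ) = 2 ^ 2 by norm_num, Real.log_pow]
  norm_num

theorem grp : (∃ c : ℝ, ∀ j, |Real.log ((X j).num : ℝ) - c * (j : ℝ) ^ 2| ≤ Real.log 4 / 3) ∧
    (∀ j : ℤ, j ≠ 0 → j • P0 ≠ 0) ∧ ∀ Q : G0, ∃ j : ℤ, Q = j • P0 := by
  obtain ⟨q, hq1, hq2⟩ := exists_canonical ht (Real.log 4) ht_zero (fun P => (ht_double P).1) ht_par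
  have l2 : 0 < Real.log 2 := Real.log_pos (by norm_num)
  have l4 := log_four
  have low : ∀ Q, Q ≠ 0 → Real.log 2 / 3 ≤ q Q := fun Q hQ => by
    have := abs_le.1 (hq1 Q)
    have := ht_ge Q hQ
    linarith
  have hP : q P0 < 3 * (Real.log 2 / 3) := by
    have h1 := quad_zsmul hq2 P0 2
    rw [two_zsmul] at h1
    have h2 := abs_le.1 (hq1 (P0 + P0))
    rw [ht_P0_double] at h2
    have h3 : 3 * Real.log 9 < 10 * Real.log 2 := by
      have := Real.log_lt_log (show (0 : ℝ) < 9 ^ 3 by norm_num)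
        (show (9 : ℝ) ^ 3 < 2 ^ 10 by norm_num)
      rw [Real.log_pow, Real.log_pow] at this
      exact_mod_cast this
    push_cast at h1
    linarith
  have cpos : 0 < q P0 := by linarith [low P0 P0_ne]
  refine ⟨⟨q P0, fun j => ?_⟩, fun j hj h => ?_,
    descent hq2 P0 (Real.log 2 / 3) (by linarith) low hP halve⟩
  · have h1 := hq1 (j • P0)
    rw [quad_zsmul hq2, abs_sub_comm, mul_comm] at h1
    exact h1
  · have h1 := quad_zsmul hq2 P0 j
    have h2 := quad_zsmul hq2 P0 0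
    rw [h] at h1
    rw [zero_smul] at h2
    have : (0 : ℝ) < (j : ℝ) ^ 2 := by positivity
    have := mul_pos this cpos
    simp at h2
    linarith

theorem X_surj {x y : ℚ} (hx : 0 < x) (e : y ^ 2 = x ^ 3 - 2 * x) : ∃ n : ℕ, x = X (n + 1) := by
  obtain ⟨j, hj⟩ := grp.2.2 ⟨Point.some x y (EW_nonsingular.2 e), hx⟩
  have h0 : j ≠ 0 := by
    rintro rfl
    rw [zero_smul] at hj
    exact Point.some_ne_zero _ (congrArg Subtype.val hj)
  have h1 : x = X j := by rw [X, ← hj]; rfl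
  rcases lt_or_gt_of_ne h0 with h | h
  · exact ⟨(-j - 1).toNat, by rw [h1, ← X_neg]; congr 1; omega⟩
  · exact ⟨(j - 1).toNat, by rw [h1]; congr 1; omega⟩

theorem X_dbl {j : ℤ} (hj : j ≠ 0) : ∃ y : ℚ, y ^ 2 = X j ^ 3 - 2 * X j ∧ y ≠ 0 ∧
    X (j + j) = ((X j ^ 2 + 2) / (2 * y)) ^ 2 := by
  have := grp.2.1 j hj
  simp only [X, add_smul]
  generalize j • P0 = Q at this
  obtain ⟨_ | ⟨x, y, h⟩, hQ⟩ := Q
  · exact (this rfl).elim
  · have hy := curve_y_ne hQ (EW_nonsingular.1 h)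
    exact ⟨y, EW_nonsingular.1 h, hy, (add_self h hy).1⟩

theorem X_pair {i j : ℤ} (hi : i ≠ 0) (hj : j ≠ 0) (h1 : i ≠ j) (h2 : i + j ≠ 0) : X i ≠ X j ∧
    (X i - X j) ^ 2 * (X (i + j) * X (i - j)) = (X i * X j + 2) ^ 2 ∧
    (X i - X j) ^ 2 * (X (i + j) + X (i - j)) = 2 * (X i * X j - 2) * (X i + X j) := by
  have nz := grp.2.1
  have n1 := nz i hi
  have n2 := nz j hj
  have n3 := nz (i - j) (sub_ne_zero.2 h1)
  have n4 := nz (i + j) h2
  simp only [X, add_smul, sub_smul] at n3 n4 ⊢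
  generalize i • P0 = P at n1 n3 n4
  generalize j • P0 = Q at n2 n3 n4
  obtain ⟨_ | ⟨x₁, y₁, h₁⟩, hP'⟩ := P
  · exact (n1 rfl).elim
  obtain ⟨_ | ⟨x₂, y₂, h₂⟩, hQ'⟩ := Q
  · exact (n2 rfl).elim
  have hx : x₁ ≠ x₂ := by
    rintro rfl
    rcases same_x h₁ h₂ with h | h
    · exact n3 (sub_eq_zero.2 (Subtype.ext h))
    · exact n4 (add_eq_zero_iff_eq_neg.2 (Subtype.ext h))
  obtain ⟨k1, k2, -⟩ := sum_prod (EW_nonsingular.1 h₁) (EW_nonsingular.1 h₂) hx
  simp only [AddSubgroup.coe_add, AddSubgroup.coe_sub, (add_ne h₁ h₂ hx).1,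
    (sub_ne h₁ h₂ hx).1, xc_some]
  exact ⟨hx, k1, k2⟩

theorem X_two : X 2 = 9 / 4 := by
  obtain ⟨y, h1, h2, h3⟩ := X_dbl one_ne_zero
  rw [X_one] at h1 h3
  rw [show (2 : ℤ) = 1 + 1 by norm_num, h3, div_pow, mul_pow, h1]
  norm_num

theorem X_three : X 3 = 338 := by
  have h := (X_pair (i := 2) (j := 1) (by norm_num) (by norm_num) (by norm_num) (by norm_num)).2.1
  norm_num [X_one, X_two] at h
  linarith

theorem one_le_X {j : ℤ} (hj : j ≠ 0) : 1 ≤ X j := by
  obtain ⟨y, h1, -⟩ := X_dbl hj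
  have := curve_sq_gt (X_pos j) h1
  have := X_pos j
  nlinarith

theorem T_add {i j : ℤ} (hi : i ≠ 0) (hj : j ≠ 0) (h : i + j ≠ 0) :
    TT (X i) (X j) (X (i + j)) = 0 := by
  by_cases e : i = j
  · subst e
    obtain ⟨y, h1, h2, h3⟩ := X_dbl hi
    have h4 : X (i + i) * (4 * y ^ 2) = (X i ^ 2 + 2) ^ 2 := by rw [h3]; field_simp; norm_num
    rw [TT]
    linear_combination 4 * X (i + i) * h1 - h4
  · obtain ⟨-, h1, h2⟩ := X_pair hi hj e h
    rw [TT]
    linear_combination X (i + j) * h2 - h1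

theorem T_imp {i j : ℤ} (hi : i ≠ 0) (hj : j ≠ 0) (h : i + j ≠ 0) {w : ℚ}
    (hw : TT (X i) (X j) w = 0) : w = X (i + j) ∨ (i ≠ j ∧ w = X (i - j)) := by
  by_cases e : i = j
  · subst e
    obtain ⟨y, h1, h2, -⟩ := X_dbl hi
    have h3 := T_add hi hi h
    rw [TT] at hw h3
    refine Or.inl (mul_left_cancel₀ (a := 4 * y ^ 2) (by positivity) ?_)
    linear_combination h3 - hw + 4 * (w - X (i + i)) * h1
  · obtain ⟨h0, h1, h2⟩ := X_pair hi hj e h
    have h3 : (X i - X j) ^ 2 * ((w - X (i + j)) * (w - X (i - j))) = 0 := by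
      rw [TT] at hw
      linear_combination hw + h1 - w * h2
    rcases mul_eq_zero.1 ((mul_eq_zero.1 h3).resolve_left
      (pow_ne_zero 2 (sub_ne_zero.2 h0))) with h4 | h4
    · exact Or.inl (sub_eq_zero.1 h4)
    · exact Or.inr ⟨e, sub_eq_zero.1 h4⟩

theorem X_inj {i j : ℤ} (hi : 0 < i) (hj : 0 < j) (h : X i = X j) : i = j := by
  by_contra e
  exact (X_pair hi.ne' hj.ne' e (by omega)).1 h

theorem T_int {u v w : ℚ} (h : TT u v w = 0) :
    (u.num * v.den - v.num * u.den) ^ 2 * w.num ^ 2 -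
      2 * (u.num * v.num - 2 * u.den * v.den) * (u.num * v.den + v.num * u.den) * w.num * w.den +
      (u.num * v.num + 2 * u.den * v.den) ^ 2 * (w.den : ℤ) ^ 2 = 0 := by
  rw [TT] at h
  have : (((u.num * v.den - v.num * u.den) ^ 2 * w.num ^ 2 -
      2 * (u.num * v.num - 2 * u.den * v.den) * (u.num * v.den + v.num * u.den) * w.num * w.den +
      (u.num * v.num + 2 * u.den * v.den) ^ 2 * (w.den : ℤ) ^ 2 : ℤ) : ℚ) = 0 := by
    push_cast
    rw [← u.mul_den_eq_num, ← v.mul_den_eq_num, ← w.mul_den_eq_num]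
    linear_combination ((u.den : ℚ) * v.den * w.den) ^ 2 * h
  exact_mod_cast this

/-- Odd multiples have denominators coprime to all numerators. -/
theorem cop {m c : ℤ} (hm : Odd m) (hc : c ≠ 0) : (X c).num.natAbs.Coprime (X m).den := by
  refine Nat.coprime_of_dvd fun p hp h1 h2 => ?_
  have := Fact.mk hp
  set N : ℤ → ZMod p := fun j => ((X j).num : ZMod p) with hN
  set D : ℤ → ZMod p := fun j => ((X j).den : ZMod p) with hD
  have ne : ∀ j, N j = 0 → D j ≠ 0 := fun j a b => by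
    have a' := Int.natCast_dvd.1 ((ZMod.intCast_zmod_eq_zero_iff_dvd _ p).1 a)
    have b' := (ZMod.natCast_eq_zero_iff _ p).1 b
    exact hp.one_lt.ne' (Nat.eq_one_of_dvd_coprimes (X j).reduced a' b')
  have R : ∀ i j, i ≠ 0 → j ≠ 0 → i + j ≠ 0 → (N i * D j - N j * D i) ^ 2 * N (i + j) ^ 2 -
      2 * (N i * N j - 2 * D i * D j) * (N i * D j + N j * D i) * N (i + j) * D (i + j) +
      (N i * N j + 2 * D i * D j) ^ 2 * D (i + j) ^ 2 = 0 := fun i j hi hj h => by
    have := congrArg (Int.cast : ℤ → ZMod p) (T_int (T_add hi hj h))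
    push_cast at this
    exact this
  have Kadd : ∀ i j, (i = 0 ∨ D i = 0) → (j = 0 ∨ D j = 0) → (i + j = 0 ∨ D (i + j) = 0) := by
    intro i j hi hj
    by_cases i0 : i = 0
    · rwa [i0, zero_add]
    by_cases j0 : j = 0
    · rwa [j0, add_zero]
    refine or_iff_not_imp_left.2 fun h => ?_
    have a := hi.resolve_left i0
    have b := hj.resolve_left j0
    have r := R i j i0 j0 h
    have a' : N i ≠ 0 := fun e => ne i e a
    have b' : N j ≠ 0 := fun e => ne j e b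
    simpa [a, b, a', b'] using r
  have Kmul : ∀ j, D j = 0 → ∀ t : ℤ, t * j = 0 ∨ D (t * j) = 0 := fun j hj t => by
    induction t using Int.induction_on with
    | zero => simp
    | succ t ih => rw [add_mul, one_mul]; exact Kadd _ _ ih (Or.inr hj)
    | pred t ih =>
      rw [sub_mul, one_mul, sub_eq_add_neg]
      exact Kadd _ _ ih (Or.inr (by simpa only [hD, X_neg] using hj))
  have Dm : D m = 0 := (ZMod.natCast_eq_zero_iff _ p).2 h2
  have Nc : N c = 0 := (ZMod.intCast_zmod_eq_zero_iff_dvd _ p).2 (Int.natCast_dvd.2 h1)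
  have Dc := ne c Nc
  obtain ⟨t, rfl⟩ := hm
  by_cases h2p : (2 : ZMod p) = 0
  · have D2 : D 2 = 0 := by
      have e : (X 2).den = 2 * 2 := by rw [X_two]; norm_num
      simp only [hD, e]
      push_cast
      rw [show (4 : ZMod p) = 2 * 2 by norm_num, h2p, zero_mul]
    have k := Kadd _ _ (Or.inr Dm) (Kmul 2 D2 (-t))
    rw [show 2 * t + 1 + -t * 2 = 1 by ring] at k
    simp [hD, X_one] at k
  · have Dcc : D (c + c) = 0 := by simpa [Nc, Dc, h2p] using R c c hc hc (by omega)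
    have k1 := Kmul _ Dcc t
    have k2 := Kmul _ Dm c
    have e : c * (2 * t + 1) = c + t * (c + c) := by ring
    have n0 : c + t * (c + c) ≠ 0 := e ▸ mul_ne_zero hc (by omega)
    rw [e] at k2
    have k3 := k2.resolve_left n0
    by_cases j0 : t * (c + c) = 0
    · rw [j0, add_zero] at k3
      exact Dc k3
    have b := k1.resolve_left j0
    have b' : N (t * (c + c)) ≠ 0 := fun e => ne _ e b
    refine ne _ ?_ k3
    simpa [Nc, b, Dc, b'] using R c _ hc j0 n0

end Vale.Agent.P027
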